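import Vale.Agent.P305RW.Main
import Vale.Agent.P305BD.Defs

/-!
# The router on objects, in the form that is used for building a level
-/

namespace Vale.Agent.P305RW

open Vale.Agent.P305E Vale.Agent.P305C Vale.Agent.P305R

theorem rw_bd (hR : ROUTE) : P305BD.RW := by
  obtain ⟨f, c, hf, H⟩ := rw hR 17
  refine ⟨f, c, hf, fun B e b d q k N X es d1 d2 q1 q2 k1 k2 e1 hN hX hes hn hT hB => ?_⟩
  have p : ∀ n, n ≤ 17 * (b + 1) → 2 ^ n ≤ 2 ^ (17 * (b + 1)) := fun n h =>
    Nat.pow_le_pow_right (by norm_num) h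
  have d3 : d ≤ b := (Nat.pow_le_pow_iff_right (show 1 < 2 by norm_num)).1
    ((Nat.pow_le_pow_left (by omega) d).trans d2)
  refine (H B e b d q k N X es (fun i => (es.getD i (0, 0, 0)).1)
    (fun i => (es.getD i (0, 0, 0)).2.1) (fun i => (es.getD i (0, 0, 0)).2.2)
    (fun i h => (List.getD_eq_getElem _ _ h).symm)
    (fun o ho => ⟨(hes o ho).1.trans (p b (by omega)), (hes o ho).2⟩) (hN.trans (p _ (by omega)))
    (hn.trans (hX.trans (p _ (by omega)))) hn hT k1 k2 d1 d3 q1 q2 e1 hB).mono ?_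
  rintro r s ⟨h1, h2, h3⟩
  exact ⟨⟨h1.nd, h1.sub, h1.walk, h1.skel, h1.hops, fun s => h1.countP_le s fun i _ h =>
    List.mem_map.1 (of_decide_eq_true h)⟩, h2, h3.trans (Nat.mul_le_mul_left _ (by omega))⟩

end Vale.Agent.P305RW
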