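import Vale.Agent.P305R.Defs

/-!
# Routes for the objects of a level, scale by scale: the specification
-/

namespace Vale.Agent.P305RW

open Vale.Agent.P305E Vale.Agent.P305C Vale.Agent.P305R

/-- The objects are the numbers `i < n`, with scale `sc i` and ends `A i`, `Z i`. The skeleton `S`
and the routes `P`. -/
structure RwOK (n : ℕ) (sc A Z : ℕ → ℕ) (γ Λ : ℕ) (S : List ℕ) (P : ℕ → List (ℕ × Bool)) :
    Prop where
  nd : S.Nodup
  sub : ∀ s ∈ S, s < n ∧ A s ≠ Z s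
  walk : ∀ i < n, Walk (fun s => (A s, Z s)) (A i) (P i) (Z i)
  skel : ∀ i < n, ∀ s ∈ P i, s.1 ∈ S ∧ sc s.1 = sc i
  self : ∀ s ∈ S, P s = [(s, true)]
  loop : ∀ i < n, A i = Z i → P i = []
  hops : ∀ i < n, (P i).length ≤ γ
  load : ∀ s, ((List.range n).map fun i => occ s (P i)).sum ≤ Λ

/-- The specification; input `((b, d, q, k, N), es)`, where `es` lists scale and ends. -/
structure RwSpec (a : ℕ) (f : (ℕ × ℕ × ℕ × ℕ × ℕ) × List (ℕ × ℕ × ℕ) →
    M (List ℕ × Arr (List (ℕ × Bool)))) (c : ℕ) : Prop where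
  impl : Impl f
  spec : ∀ (B e b d q k N m : ℕ) (es : List (ℕ × ℕ × ℕ)) (sc A Z : ℕ → ℕ),
    (∀ i (h : i < es.length), es[i] = (sc i, A i, Z i)) →
    (∀ o ∈ es, o.1 ≤ 2 ^ (a * (b + 1)) ∧ o.2.1 < N ∧ o.2.2 < N) → N ≤ 2 ^ (a * (b + 1)) →
    es.length ≤ 2 ^ (a * (b + 1)) → es.length ≤ m →
    (∀ T : Finset (ℕ × ℕ), (∀ p ∈ T, ∃ o ∈ es, o.2.1 ≠ o.2.2 ∧ p.1 = o.1 ∧
      (p.2 = o.2.1 ∨ p.2 = o.2.2)) → k * T.card ≤ m) →
    1 ≤ k → k ≤ 2 ^ b → 1 ≤ d → d ≤ b → 2 ^ b ≤ q ^ d → q ≤ 2 ^ b → e ≤ b →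
    2 ^ (c * (b + 1)) ≤ B → Vt e B (f ((b, d, q, k, N), es)) fun r t =>
      RwOK es.length sc A Z ((b + 2) ^ (c * d)) (((b + 2) * k) ^ (c * d)) r.1 r.2.get ∧
      k * r.1.length ^ 2 ≤ ((b + 2) ^ (c * d) * m) ^ 2 ∧
      t ≤ q * ((b + 2) * k) ^ (c * d) * (es.length + 1)

/-- **The block RW.** -/
def RW : Prop := ∀ a, ∃ f c, RwSpec a f c

variable {n γ Λ : ℕ} {sc A Z : ℕ → ℕ} {S : List ℕ} {P : ℕ → List (ℕ × Bool)}

/-- Without proper objects the skeleton is empty. -/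
theorem RwOK.nil (h : RwOK n sc A Z γ Λ S P) (hl : ∀ i < n, A i = Z i) : S = [] :=
  List.eq_nil_iff_forall_not_mem.2 fun s hs => (h.sub s hs).2 (hl s (h.sub s hs).1)

theorem RwOK.length_le (h : RwOK n sc A Z γ Λ S P) : S.length ≤ n := by
  have := (List.subperm_of_subset h.nd fun s hs => List.mem_range.2 (h.sub s hs).1).length_le
  simpa using this

theorem countP_le_sum {p : ℕ → Bool} {g : ℕ → ℕ} (l : List ℕ) (h : ∀ i ∈ l, p i = true → 1 ≤ g i) :
    l.countP p ≤ (l.map g).sum := by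
  induction l with
  | nil => simp
  | cons x l ih =>
    have a := ih fun i hi => h i (by simp [hi])
    have b := h x (by simp)
    rw [List.countP_cons, List.map_cons, List.sum_cons]
    split_ifs with hx
    · have := b hx
      omega
    · omega

/-- The number of routes through an object of the skeleton. -/
theorem RwOK.countP_le (h : RwOK n sc A Z γ Λ S P) (s : ℕ) {p : ℕ → Bool}
    (hp : ∀ i < n, p i = true → ∃ x ∈ P i, x.1 = s) : (List.range n).countP p ≤ Λ :=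
  (countP_le_sum _ fun i hi hx => by
    obtain ⟨x, h1, h2⟩ := hp i (List.mem_range.1 hi) hx
    exact List.count_pos_iff.2 (List.mem_map.2 ⟨x, h1, h2⟩)).trans (h.load s)

theorem RwOK.mono {γ' Λ' : ℕ} (h : RwOK n sc A Z γ Λ S P) (h1 : γ ≤ γ') (h2 : Λ ≤ Λ') :
    RwOK n sc A Z γ' Λ' S P :=
  { h with hops := fun i hi => (h.hops i hi).trans h1, load := fun s => (h.load s).trans h2 }

end Vale.Agent.P305RW
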