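import Vale.Agent.P305RW.Defs

/-!
# Routes for the objects of a level, scale by scale: the program
-/

namespace Vale.Agent.P305RW

open Vale.Agent.P305E Vale.Agent.P305C Vale.Agent.P305R

/-- The ends of an object in the disjoint union of the scales; loops sit at `0`. -/
def ed (N : ℕ) (o : ℕ × ℕ × ℕ) : ℕ × ℕ :=
  if o.2.1 = o.2.2 then (0, 0) else (o.1 * N + o.2.1, o.1 * N + o.2.2)

/-- The edge of an object. -/
def edP (N : ℕ) (p : (ℕ × ℕ × ℕ) × ℕ) : M Ed :=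
  if p.1.2.1 = p.1.2.2 then pure (p.2, 0, 0)
  else num (p.1.1 * N + p.1.2.1) >>= fun u => num (p.1.1 * N + p.1.2.2) >>= fun v =>
    pure (p.2, u, v)

/-- The program. -/
def rwP (a : ℕ) (f : (ℕ × ℕ × ℕ × ℕ) × List Ed → M (List ℕ × Arr (List St)))
    (x : (ℕ × ℕ × ℕ × ℕ × ℕ) × List (ℕ × ℕ × ℕ)) : M (List ℕ × Arr (List St)) :=
  num (a * (x.1.1 + 1)) >>= fun b' => num (2 * a * x.1.2.1) >>= fun dep =>
    num (Nat.size x.1.2.2.1 / 2 + 1) >>= fun h => zipIdxP x.2 >>= fun l =>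
    mapM' (edP x.1.2.2.2.2) l >>= fun F => f ((b', (Nat.size x.1.2.2.2.1 - 1) / 2, h, dep), F)

theorem impl_rwP (a : ℕ) {f : (ℕ × ℕ × ℕ × ℕ) × List Ed → M (List ℕ × Arr (List St))}
    (hf : Impl f) : Impl (rwP a f) := by
  unfold rwP edP
  fun_prop

theorem edP_tri {c : Cx} {N : ℕ} {es : List (ℕ × ℕ × ℕ)}
    (h : ∀ o ∈ es, o.1 * N + o.2.1 ≤ c.B ∧ o.1 * N + o.2.2 ≤ c.B) :
    Tri c (mapM' (edP N) es.zipIdx) fun F t =>
      F = es.zipIdx.map (fun p => (p.2, ed N p.1)) ∧ t ≤ 2 * es.length := by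
  refine (Tri.mapM' (P := fun p y => y = (p.2, ed N p.1)) (T := fun _ => 0) fun p hp => ?_).mono
    fun F t hF => ⟨?_, by simpa using hF.2⟩
  · have := h p.1 (List.fst_mem_of_mem_zipIdx hp)
    simp only [edP, ed, Tri_ite, Tri_pure, Tri_bind, Tri_num]
    exact ⟨fun e => by simp [e], fun e => ⟨this.1, this.2, by simp [e]⟩⟩
  · have := hF.1
    generalize es.zipIdx = l at this
    clear hF
    induction this with
    | nil => rfl
    | cons h _ ih => rw [h, ih, List.map_cons]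

/-- A walk in the disjoint union stays in its scale and projects to a walk. -/
theorem walk_proj {N : ℕ} {E : ℕ → ℕ × ℕ} {sc A Z : ℕ → ℕ} {w : List St} {σ u v : ℕ}
    (hu : u < N) (hv : v < N) (h : Walk E (σ * N + u) w (σ * N + v))
    (e : ∀ s ∈ w, E s.1 = (sc s.1 * N + A s.1, sc s.1 * N + Z s.1) ∧ A s.1 < N ∧ Z s.1 < N) :
    Walk (fun s => (A s, Z s)) u w v ∧ ∀ s ∈ w, sc s.1 = σ := by
  have key : ∀ {x y x' y' : ℕ}, y < N → y' < N → x * N + y = x' * N + y' → x = x' ∧ y = y' := by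
    intro x y x' y' h1 h2 h3
    have a := congrArg (· / N) h3
    have b := congrArg (· % N) h3
    have hN : 0 < N := by omega
    simp only [Nat.mul_comm _ N, Nat.mul_add_div hN, Nat.div_eq_of_lt h1, Nat.div_eq_of_lt h2,
      Nat.mul_add_mod, Nat.mod_eq_of_lt h1, Nat.mod_eq_of_lt h2, add_zero] at a b
    exact ⟨a, b⟩
  induction w generalizing u with
  | nil => exact ⟨(key hu hv h).2, by simp⟩
  | cons s w ih =>
    obtain ⟨e1, e2, e3⟩ := e s (by simp)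
    obtain ⟨h1, h2⟩ := h
    have k : sc s.1 = σ ∧ src (fun s => (A s, Z s)) s = u ∧ dst (fun s => (A s, Z s)) s < N ∧
        dst E s = σ * N + dst (fun s => (A s, Z s)) s := by
      unfold src dst at *
      rw [e1] at h1 ⊢
      split_ifs at h1 ⊢
      · obtain ⟨a, b⟩ := key e2 hu h1
        exact ⟨a, b, e3, by rw [a]⟩
      · obtain ⟨a, b⟩ := key e3 hu h1
        exact ⟨a, b, e2, by rw [a]⟩
    rw [k.2.2.2] at h2
    obtain ⟨a, b⟩ := ih k.2.2.1 h2 fun s hs => e s (by simp [hs])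
    exact ⟨⟨k.2.1, a⟩, fun x hx => (List.mem_cons.1 hx).elim (fun e => e ▸ k.1) (b x)⟩

theorem rwOK {N γ Λ : ℕ} {es : List (ℕ × ℕ × ℕ)} {sc A Z : ℕ → ℕ} {S : List ℕ}
    {P : ℕ → List St} (he : ∀ i (h : i < es.length), es[i] = (sc i, A i, Z i))
    (hN : ∀ o ∈ es, o.2.1 < N ∧ o.2.2 < N)
    (h : RouteOK (fun i => ed N (sc i, A i, Z i)) (es.zipIdx.map fun p => (p.2, ed N p.1))
      γ Λ S P) : RwOK es.length sc A Z γ Λ S P := by
  have eF : (es.zipIdx.map fun p => ((p.2, ed N p.1) : Ed)) =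
      (List.range es.length).map fun i => (i, ed N (sc i, A i, Z i)) :=
    List.ext_getElem (by simp) fun i h1 h2 => by
      have := he i (by simpa using h1)
      simp [this]
  rw [eF] at h
  have mem : ∀ i < es.length, ((i, ed N (sc i, A i, Z i)) : Ed) ∈
      (List.range es.length).map fun i => ((i, ed N (sc i, A i, Z i)) : Ed) := fun i hi =>
    List.mem_map.2 ⟨i, List.mem_range.2 hi, rfl⟩
  have lt : ∀ i < es.length, A i < N ∧ Z i < N := fun i hi => by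
    have := hN _ (List.getElem_mem hi)
    rwa [he i hi] at this
  have sub : ∀ s ∈ S, s < es.length ∧ A s ≠ Z s := fun s hs => by
    obtain ⟨z, hz, rfl, h2⟩ := h.sub s hs
    obtain ⟨i, hi, rfl⟩ := List.mem_map.1 hz
    exact ⟨List.mem_range.1 hi, fun e => h2 (by simp [ed, e])⟩
  have loop : ∀ i < es.length, A i = Z i → P i = [] := fun i hi e =>
    h.loop _ (mem i hi) (by simp [ed, e])
  have key : ∀ i < es.length, Walk (fun s => (A s, Z s)) (A i) (P i) (Z i) ∧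
      ∀ s ∈ P i, sc s.1 = sc i := fun i hi => by
    by_cases e : A i = Z i
    · rw [loop i hi e]
      exact ⟨e, by simp⟩
    · have w := h.walk _ (mem i hi)
      simp only [ed, e, if_false] at w
      refine walk_proj (lt i hi).1 (lt i hi).2 w fun s hs => ?_
      have := sub _ (h.skel _ (mem i hi) s hs)
      exact ⟨by simp only [this.2, if_false], lt _ this.1⟩
  exact ⟨h.nd, sub, fun i hi => (key i hi).1,
    fun i hi s hs => ⟨h.skel _ (mem i hi) s hs, (key i hi).2 s hs⟩, h.self, loop,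
    fun i hi => h.hops _ (mem i hi), fun s => by simpa [Function.comp_def] using h.load s⟩

/-! ### Numbers -/

theorem le_pow_self {x : ℕ} (hx : 2 ≤ x) (n : ℕ) : n + 1 ≤ x ^ n :=
  Nat.lt_two_pow_self.trans_le (Nat.pow_le_pow_left hx n)

theorem size_half {k : ℕ} (hk : 1 ≤ k) :
    4 ^ ((Nat.size k - 1) / 2) ≤ k ∧ k ≤ 4 * 4 ^ ((Nat.size k - 1) / 2) := by
  have a : 2 ^ (Nat.size k - 1) ≤ k := Nat.lt_size.1 (by have := Nat.size_pos.2 hk; omega)
  have b : k < 2 ^ Nat.size k := Nat.lt_size_self k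
  have e : ∀ j, 4 ^ j = 2 ^ (2 * j) := fun j => by rw [pow_mul]; norm_num
  rw [e, show 4 * 2 ^ (2 * ((Nat.size k - 1) / 2)) = 2 ^ (2 * ((Nat.size k - 1) / 2) + 2) by ring]
  exact ⟨(Nat.pow_le_pow_right (by norm_num) (by omega)).trans a,
    b.le.trans (Nat.pow_le_pow_right (by norm_num) (by omega))⟩

theorem size_half' {q : ℕ} (hq : 1 ≤ q) : 4 ^ (Nat.size q / 2 + 1) ≤ 8 * q := by
  have p := Nat.size_pos.2 hq
  have a : 2 ^ (Nat.size q - 1) ≤ q := Nat.lt_size.1 (by omega)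
  calc 4 ^ (Nat.size q / 2 + 1) = 2 ^ (2 * (Nat.size q / 2 + 1)) := by rw [pow_mul]; norm_num
    _ ≤ 2 ^ (Nat.size q - 1 + 3) := Nat.pow_le_pow_right (by norm_num) (by omega)
    _ ≤ 8 * q := by rw [pow_add]; omega

/-- The constant. -/
def cc (a : ℕ) : ℕ := 2 * a * (a + 6) + 20 * a + 27

theorem nums {a b d q k j h : ℕ} (hd : 1 ≤ d) (hk : 4 ^ j ≤ k) (hq1 : 1 ≤ q) (hq : 4 ^ h ≤ 8 * q) :
    gam (a * (b + 1)) (2 * a * d) ≤ (b + 2) ^ (cc a * d) ∧
    lam (a * (b + 1)) j (2 * a * d) ≤ ((b + 2) * k) ^ (cc a * d) ∧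
    1600 * (2 * a * d) * (a * (b + 1) + 2) ≤ (b + 2) ^ (cc a * d) ∧
    tm (a * (b + 1)) j h (2 * a * d) + 3 ≤ q * ((b + 2) * k) ^ (cc a * d) := by
  obtain ⟨x, hx⟩ : ∃ x, x = b + 2 := ⟨_, rfl⟩
  obtain ⟨D, hD⟩ : ∃ D, D = 2 * a * d := ⟨_, rfl⟩
  obtain ⟨y, hy⟩ : ∃ y, y = a * (b + 1) := ⟨_, rfl⟩
  have x2 : 2 ≤ x := by omega
  have x0 : 0 < x := by omega
  have k1 : 1 ≤ k := (Nat.one_le_pow _ _ (by norm_num)).trans hk
  have p2 : ∀ n, 2 ^ n ≤ x ^ n := fun n => Nat.pow_le_pow_left x2 n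
  have h1 : y + 2 ≤ x ^ (a + 1) := by
    have := Nat.mul_le_mul_right x (le_pow_self x2 a)
    rw [pow_succ]
    nlinarith
  have h2 : 12 * y + 17 ≤ x ^ (a + 5) := by
    have := Nat.mul_le_mul (p2 4) h1
    rw [← pow_add, show 4 + (a + 1) = a + 5 by omega] at this
    omega
  have h3 : gam y D ≤ x ^ ((a + 5) * D) := by
    rw [pow_mul]
    exact Nat.pow_le_pow_left (by omega) D
  have h4 : D + 1 ≤ x ^ D := le_pow_self x2 D
  have hE : 27 + 2 * a + (a + 6) * D ≤ cc a * d := by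
    have : 27 + 20 * a ≤ (27 + 20 * a) * d := Nat.le_mul_of_pos_right _ hd
    rw [hD, cc]
    nlinarith
  have hE' : (a + 6) * D = (a + 5) * D + D := by ring
  rw [← hx, ← hD, ← hy]
  refine ⟨h3.trans (Nat.pow_le_pow_right x0 (by omega)), ?_, ?_, ?_⟩
  · have a1 : 16 ^ j ≤ k ^ (a + 5) := by
      calc 16 ^ j = (4 ^ j) ^ 2 := by rw [← pow_mul, mul_comm, pow_mul]; norm_num
        _ ≤ k ^ 2 := Nat.pow_le_pow_left hk 2
        _ ≤ _ := Nat.pow_le_pow_right k1 (by omega)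
    calc lam y j D ≤ ((x * k) ^ (a + 5)) ^ D :=
          Nat.pow_le_pow_left (by rw [mul_pow, mul_comm]; exact Nat.mul_le_mul h2 a1) D
      _ ≤ _ := by
          rw [← pow_mul]
          exact Nat.pow_le_pow_right (Nat.mul_pos x0 k1) (by omega)
  · calc 1600 * D * (y + 2) ≤ x ^ 11 * x ^ D * x ^ (a + 1) :=
          Nat.mul_le_mul (Nat.mul_le_mul (le_trans (by norm_num) (p2 11)) (by omega)) h1
      _ ≤ _ := by
          rw [← pow_add, ← pow_add]
          exact Nat.pow_le_pow_right x0 (by omega)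
  · have a1 : 4 ^ (j + h + 10) ≤ k * q * x ^ 23 := by
      have := Nat.mul_le_mul (Nat.mul_le_mul hk hq) (le_refl (4 ^ 10))
      have := Nat.mul_le_mul_left (k * q) (p2 23)
      rw [pow_add, pow_add]
      nlinarith
    have a2 : tm y j h D ≤ k * q * x ^ 23 * (x ^ (a + 1)) ^ 2 * x ^ D * x ^ ((a + 5) * D) :=
      Nat.mul_le_mul (Nat.mul_le_mul (Nat.mul_le_mul a1
        (Nat.pow_le_pow_left (by omega) 2)) h4) h3
    have a3 : k * q * x ^ 23 * (x ^ (a + 1)) ^ 2 * x ^ D * x ^ ((a + 5) * D) =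
        k * q * x ^ (25 + 2 * a + (a + 6) * D) := by rw [hE']; ring
    have a4 : 1 ≤ k * q * x ^ (25 + 2 * a + (a + 6) * D) :=
      Nat.mul_pos (Nat.mul_pos k1 hq1) (by positivity)
    have a5 : k ≤ k ^ (cc a * d) := Nat.le_self_pow (by omega) k
    calc tm y j h D + 3 ≤ k * q * x ^ (25 + 2 * a + (a + 6) * D) * 2 ^ 2 := by omega
      _ ≤ k ^ (cc a * d) * q * x ^ (25 + 2 * a + (a + 6) * D) * x ^ 2 := by
          gcongr
      _ ≤ k ^ (cc a * d) * q * x ^ (cc a * d) := by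
          rw [mul_assoc, ← pow_add]
          exact Nat.mul_le_mul_left _ (Nat.pow_le_pow_right x0 (by omega))
      _ = _ := by rw [mul_pow]; ring

theorem size_le {j k v t m n s D y X : ℕ} (j1 : 4 ^ j ≤ k) (j2 : k ≤ 4 * 4 ^ j) (h1 : v ≤ 3 * t)
    (h2 : k * t ≤ m) (h3 : n ≤ m) (h4 : 2 ^ j * s ≤ 200 * D * y * (n + 4 ^ j * v))
    (h5 : 1600 * D * y ≤ X) : k * s ^ 2 ≤ (X * m) ^ 2 := by
  have c3 := Nat.mul_le_mul j1 h1
  have c4 := h4.trans (Nat.mul_le_mul_left _ (show _ ≤ 4 * m by nlinarith))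
  have c5 := Nat.mul_le_mul_right m h5
  calc _ ≤ 4 * 4 ^ j * s ^ 2 := Nat.mul_le_mul_right _ j2
    _ = (2 * (2 ^ j * s)) ^ 2 := by
        rw [show (4 : ℕ) ^ j = (2 ^ j) ^ 2 by rw [← pow_mul, mul_comm, pow_mul]; norm_num]
        ring
    _ ≤ _ := Nat.pow_le_pow_left (by nlinarith) 2

theorem rw (hR : ROUTE) : RW := by
  obtain ⟨f, hf, H⟩ := hR
  intro a₀
  obtain ⟨a, ha⟩ : ∃ a, a = a₀ + 1 := ⟨_, rfl⟩
  refine ⟨rwP a f, cc a, impl_rwP a hf, ?_⟩
  intro B e b d q k N m es sc A Z he hes hN hn hm hT k1 k2 d1 d2 q1 q2 e1 hB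
  obtain ⟨y, hy⟩ : ∃ y, y = a * (b + 1) := ⟨_, rfl⟩
  have y1 : b + 1 ≤ y := by rw [hy, ha]; nlinarith
  have y2 : 2 ^ (a₀ * (b + 1)) ≤ 2 ^ y := Nat.pow_le_pow_right (by norm_num) (by
    rw [hy, ha]; nlinarith)
  have y3 : 2 ^ (10 * (y + 1)) ≤ B := le_trans (Nat.pow_le_pow_right (by norm_num) (by
    have : 20 * a * (b + 1) ≤ cc a * (b + 1) := Nat.mul_le_mul_right _ (by unfold cc; omega)
    nlinarith)) hB
  have y4 : 2 ^ y * 2 ^ y + 2 ^ y ≤ B := by
    refine le_trans ?_ ((Nat.pow_le_pow_right (by norm_num)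
      (show y + y + 1 ≤ 10 * (y + 1) by omega)).trans y3)
    have : 2 ^ y ≤ 2 ^ y * 2 ^ y := Nat.le_mul_self _
    rw [pow_succ, pow_add]
    omega
  have y5 : y < 2 ^ y := Nat.lt_two_pow_self
  have y6 : 2 * 2 ^ y ≤ B := by
    have : 2 ^ y ≤ 2 ^ y * 2 ^ y := Nat.le_mul_self _
    omega
  have q0 : 1 ≤ q := Nat.pos_of_ne_zero fun h0 => by
    rw [h0, zero_pow (by omega)] at q1
    exact absurd q1 (by simp)
  have s1 : Nat.size q ≤ b + 1 := Nat.size_le.2 (by rw [pow_succ]; omega)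
  have s2 : Nat.size k ≤ b + 1 := Nat.size_le.2 (by rw [pow_succ]; omega)
  have s3 : b < Nat.size q * d := (Nat.pow_lt_pow_iff_right (show 1 < 2 by norm_num)).1
    (q1.trans_lt (by rw [pow_mul]; exact Nat.pow_lt_pow_left (Nat.lt_size_self q) (by omega)))
  have s4 : y < (Nat.size q / 2 + 1) * (2 * a * d) := by
    have a1 : (Nat.size q + 1) * d ≤ 2 * (Nat.size q / 2 + 1) * d :=
      Nat.mul_le_mul_right _ (by omega)
    have a2 : b + 2 ≤ 2 * (Nat.size q / 2 + 1) * d := by nlinarith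
    have a3 := Nat.mul_le_mul_left a a2
    rw [hy]
    nlinarith
  have s5 : 2 * a * d ≤ 2 * y := by rw [hy, mul_assoc]; gcongr; omega
  obtain ⟨j1, j2⟩ := size_half k1
  obtain ⟨n1, n2, n3, n4⟩ := nums (a := a) (b := b) d1 j1 q0 (size_half' q0)
  obtain ⟨T, hT0⟩ : ∃ T : Finset (ℕ × ℕ), T = ((es.filter fun o => o.2.1 ≠ o.2.2).flatMap
    fun o => [(o.1, o.2.1), (o.1, o.2.2)]).toFinset := ⟨_, rfl⟩
  have hT1 : ∀ p, p ∈ T ↔ ∃ o ∈ es, o.2.1 ≠ o.2.2 ∧ p.1 = o.1 ∧ (p.2 = o.2.1 ∨ p.2 = o.2.2) := by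
    rintro ⟨p1, p2⟩
    simp only [hT0, List.mem_toFinset, List.mem_flatMap, List.mem_filter, List.mem_cons,
      Prod.mk.injEq, List.not_mem_nil, or_false, decide_eq_true_eq, and_or_left, and_assoc]
  have hT2 := hT T fun p hp => (hT1 p).1 hp
  simp only [rwP]
  rw [← hy] at n1 n2 n3 n4 ⊢
  refine Vt.num_bind (by omega) (Vt.num_bind (by omega) (Vt.num_bind (by omega)
    (Vt.tbind' ((Tri_zipIdxP _ _).2 ⟨by change _ ≤ B; omega, ?_⟩))))
  refine Vt.tbind (cn := true) (edP_tri fun o ho => ?_) ?_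
  · obtain ⟨h1, h2, h3⟩ := hes o ho
    have := Nat.mul_le_mul (h1.trans y2) (hN.trans y2)
    change _ ≤ B ∧ _ ≤ B
    omega
  rintro _ t ⟨rfl, ht⟩
  refine (H B e y _ _ _ (fun i => ed N (sc i, A i, Z i)) _
    (insert 0 (T.image fun p => p.1 * N + p.2)) ?_ ?_ (by simpa using hn.trans y2) (by omega)
    (by omega) (by omega) s4 y3).mono ?_
  · rw [List.map_map]
    exact (List.zipIdx_map_snd 0 es).symm ▸ List.nodup_range'
  · intro z hz
    obtain ⟨p, hp, rfl⟩ := List.mem_map.1 hz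
    obtain ⟨h1, h2⟩ := List.mem_zipIdx' hp
    have ho := List.fst_mem_of_mem_zipIdx hp
    refine ⟨by rw [h2, he], ?_, ?_, by change 2 * p.2 + 1 ≤ B; omega⟩
    all_goals
      simp only [ed]
      split_ifs with h3
      · exact Finset.mem_insert_self _ _
    · exact Finset.mem_insert_of_mem (Finset.mem_image.2
        ⟨(p.1.1, p.1.2.1), (hT1 _).2 ⟨_, ho, h3, rfl, Or.inl rfl⟩, rfl⟩)
    · exact Finset.mem_insert_of_mem (Finset.mem_image.2
        ⟨(p.1.1, p.1.2.2), (hT1 _).2 ⟨_, ho, h3, rfl, Or.inr rfl⟩, rfl⟩)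
  rintro r s ⟨h1, h2, h3⟩
  have k := rwOK he (fun o ho => (hes o ho).2) h1
  simp only [List.length_map, List.length_zipIdx] at h2 h3
  refine ⟨k.mono n1 n2, ?_, ?_⟩
  · by_cases h0 : T = ∅
    · rw [k.nil fun i hi => by
        by_contra hne
        have : (sc i, A i) ∈ T := (hT1 _).2 ⟨_, he i hi ▸ List.getElem_mem hi, hne, rfl, Or.inl rfl⟩
        simp [h0] at this]
      simp
    · have c1 := Finset.card_pos.2 (Finset.nonempty_iff_ne_empty.2 h0)
      have c2 : (insert 0 (T.image fun p => p.1 * N + p.2)).card + 1 ≤ 3 * T.card := by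
        have := Finset.card_insert_le 0 (T.image fun p => p.1 * N + p.2)
        have := Finset.card_image_le (s := T) (f := fun p => p.1 * N + p.2)
        omega
      exact size_le j1 j2 c2 hT2 hm h2 n3
  · have := Nat.mul_le_mul_right (es.length + 1) n4
    rw [add_mul] at this
    omega

end Vale.Agent.P305RW
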